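import Vale.Agent.P344.H518.Chain

/-!
# Proportionality classes of linear forms, and the additions lost with a column
-/

set_option autoImplicit false

namespace Vale.Agent.P344.H518

open Finset

variable {ι κ : Type} [Fintype ι] [DecidableEq ι]

/-- Proportional vectors. -/
def prp (ι : Type) : Setoid (ι → ℂ) where
  r u v := ∃ c : ℂ, c ≠ 0 ∧ u = c • v
  iseqv :=
    { refl := fun u => ⟨1, one_ne_zero, (one_smul ℂ u).symm⟩
      symm := by
        rintro u v ⟨c, hc, rfl⟩
        exact ⟨c⁻¹, inv_ne_zero hc, by rw [smul_smul, inv_mul_cancel₀ hc, one_smul]⟩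
      trans := by
        rintro u v w ⟨c, hc, rfl⟩ ⟨d, hd, rfl⟩
        exact ⟨c * d, mul_ne_zero hc hd, by rw [smul_smul]⟩ }

/-- The class of a vector. -/
def cls (v : ι → ℂ) : Quotient (prp ι) := Quotient.mk (prp ι) v

theorem cls_eq {u v : ι → ℂ} : cls u = cls v ↔ ∃ c : ℂ, c ≠ 0 ∧ u = c • v := Quotient.eq (r := prp ι)

/-- Restriction of classes. -/
def resCls (J : Finset ι) : Quotient (prp ι) → Quotient (prp ι) :=
  Quotient.lift (fun v => cls (rst J v)) (by
    rintro u v ⟨c, hc, rfl⟩
    exact cls_eq.2 ⟨c, hc, by rw [rst_smul]⟩)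

theorem resCls_cls (J : Finset ι) (v : ι → ℂ) : resCls J (cls v) = cls (rst J v) := rfl

open Classical in
/-- The classes of the members of a list. -/
noncomputable def clss (l : List (ι → ℂ)) : Finset (Quotient (prp ι)) := (l.map cls).toFinset

theorem card_clss_le (l : List (ι → ℂ)) : (clss l).card ≤ l.length := by
  classical
  have := List.toFinset_card_le (l.map (cls (ι := ι)))
  rw [List.length_map] at this
  exact this

theorem mem_clss {l : List (ι → ℂ)} {x : Quotient (prp ι)} :
    x ∈ clss l ↔ ∃ v ∈ l, cls v = x := by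
  classical
  simp [clss]

/-- Repeated classes can be left out. -/
theorem Chain.dedup {J : Finset ι} {l : List (ι → ℂ)} (h : Chain J l) :
    ∃ l', Chain J l' ∧ (∀ v, Av J l v → Av J l' v) ∧ l'.length ≤ (clss l).card := by
  classical
  induction h with
  | nil => exact ⟨[], Chain.nil, fun _ h => h, by simp⟩
  | @cons l a b _ ha hb ih =>
    obtain ⟨l', h1, h2, h3⟩ := ih
    have hsub : clss l ⊆ clss ((a + b) :: l) := by
      intro x hx
      obtain ⟨v, hv, hvx⟩ := mem_clss.1 hx
      exact mem_clss.2 ⟨v, List.mem_cons_of_mem _ hv, hvx⟩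
    by_cases hin : cls (a + b) ∈ clss l
    · obtain ⟨u, hu, hux⟩ := mem_clss.1 hin
      obtain ⟨c, _, hc⟩ := cls_eq.1 hux.symm
      have hab : Av J l' (a + b) := by
        rw [hc]
        exact (h2 u (Or.inr (Or.inr ⟨u, hu, 1, (one_smul ℂ u).symm⟩))).smul c
      refine ⟨l', h1, ?_, h3.trans (Finset.card_le_card hsub)⟩
      rintro v (hv | ⟨i, hi, d, hd⟩ | ⟨w, hw, d, hd⟩)
      · exact Or.inl hv
      · exact Or.inr (Or.inl ⟨i, hi, d, hd⟩)
      · rw [List.mem_cons] at hw
        rcases hw with rfl | hw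
        · rw [hd]; exact hab.smul d
        · exact h2 v (Or.inr (Or.inr ⟨w, hw, d, hd⟩))
    · refine ⟨(a + b) :: l', Chain.cons h1 (h2 a ha) (h2 b hb), ?_, ?_⟩
      · rintro v (hv | ⟨i, hi, d, hd⟩ | ⟨w, hw, d, hd⟩)
        · exact Or.inl hv
        · exact Or.inr (Or.inl ⟨i, hi, d, hd⟩)
        · rw [List.mem_cons] at hw
          rcases hw with rfl | hw
          · exact Or.inr (Or.inr ⟨a + b, List.mem_cons_self, d, hd⟩)
          · exact (h2 v (Or.inr (Or.inr ⟨w, hw, d, hd⟩))).mono fun x hx => List.mem_cons_of_mem _ hx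
      · have h4 : (insert (cls (a + b)) (clss l)).card ≤ (clss ((a + b) :: l)).card := by
          refine Finset.card_le_card ?_
          intro x hx
          rcases Finset.mem_insert.1 hx with rfl | hx
          · exact mem_clss.2 ⟨a + b, List.mem_cons_self, rfl⟩
          · exact hsub hx
        rw [Finset.card_insert_of_notMem hin] at h4
        rw [List.length_cons]
        omega

variable [Fintype κ]

open Classical in
/-- The classes of the rows of `F`, restricted to the columns in `J`. -/
noncomputable def rowCls (F : κ → ι → ℂ) (J : Finset ι) : Finset (Quotient (prp ι)) :=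
  Finset.univ.image fun r => cls (rst J (F r))

theorem mem_rowCls {F : κ → ι → ℂ} {J : Finset ι} {x : Quotient (prp ι)} :
    x ∈ rowCls F J ↔ ∃ r, cls (rst J (F r)) = x := by
  classical
  simp [rowCls]

/-- The classes of the rows are among those of the sums. -/
theorem rowCls_subset {F : κ → ι → ℂ} {J : Finset ι} {l : List (ι → ℂ)} (hJ : 1 < J.card)
    (hne : ∀ r, ∀ i ∈ J, F r i ≠ 0) (h : ∀ r, Av J l (rst J (F r))) : rowCls F J ⊆ clss l := by
  intro x hx
  obtain ⟨r, rfl⟩ := mem_rowCls.1 hx
  obtain ⟨i, hi, j, hj, hij⟩ := Finset.one_lt_card.1 hJ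
  have hent : ∀ k ∈ J, rst J (F r) k ≠ 0 := by
    intro k hk
    simp only [rst, hk, if_true]
    exact hne r k hk
  have hnil := not_av_nil (J := J) hij (hent i hi) (hent j hj)
  rcases h r with h | ⟨k, hk, c, hc⟩ | ⟨u, hu, c, hc⟩
  · exact absurd (Or.inl h) hnil
  · exact absurd (Or.inr (Or.inl ⟨k, hk, c, hc⟩)) hnil
  · have hc0 : c ≠ 0 := by
      rintro rfl
      exact hent i hi (by rw [hc, zero_smul]; rfl)
    exact mem_clss.2 ⟨u, hu, (cls_eq.2 ⟨c, hc0, hc⟩).symm⟩

theorem card_rowCls_le {F : κ → ι → ℂ} {J : Finset ι} {s : ℕ} (hJ : 1 < J.card)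
    (hne : ∀ r, ∀ i ∈ J, F r i ≠ 0) (h : Cmp F J Finset.univ s) : (rowCls F J).card ≤ s := by
  obtain ⟨l, _, hls, hout⟩ := h
  exact ((Finset.card_le_card (rowCls_subset hJ hne fun r => hout r (Finset.mem_univ r))).trans
    (card_clss_le l)).trans hls

/-- Passing to fewer columns, the coincidences between rows save additions. -/
theorem drop_step {F : κ → ι → ℂ} {J K : Finset ι} {s : ℕ} (hK : K ⊆ J) (hJ : 1 < J.card)
    (hne : ∀ r, ∀ i ∈ J, F r i ≠ 0) (h : Cmp F J Finset.univ s) :
    Cmp F K Finset.univ (s - (rowCls F J).card + (rowCls F K).card) := by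
  classical
  obtain ⟨l, hl, hls, hout⟩ := h
  have hsub := rowCls_subset hJ hne fun r => hout r (Finset.mem_univ r)
  obtain ⟨l', h1, h2, h3⟩ := (hl.rst hK).dedup
  refine ⟨l', h1, h3.trans ?_, ?_⟩
  · have e1 : clss (l.map (rst K)) ⊆ ((clss l) \ (rowCls F J)).image (resCls K) ∪ rowCls F K := by
      intro x hx
      obtain ⟨v, hv, rfl⟩ := mem_clss.1 hx
      obtain ⟨u, hu, rfl⟩ := List.mem_map.1 hv
      rw [Finset.mem_union]
      by_cases hr : cls u ∈ rowCls F J
      · right
        obtain ⟨r, hr⟩ := mem_rowCls.1 hr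
        refine mem_rowCls.2 ⟨r, ?_⟩
        have e0 : resCls K (cls (rst J (F r))) = resCls K (cls u) := by rw [hr]
        rwa [resCls_cls, resCls_cls, rst_rst hK] at e0
      · left
        exact Finset.mem_image.2 ⟨cls u, Finset.mem_sdiff.2 ⟨mem_clss.2 ⟨u, hu, rfl⟩, hr⟩, rfl⟩
    have e2 := (Finset.card_le_card e1).trans (Finset.card_union_le _ _)
    have e3 := Finset.card_image_le (s := clss l \ rowCls F J) (f := resCls K)
    have e4 := Finset.card_sdiff_add_card_eq_card hsub
    have e5 := card_clss_le l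
    omega
  · intro r hr
    refine h2 _ ?_
    have := (hout r hr).rst hK
    rwa [rst_rst hK] at this

/-- The number of additions, if the numbers of classes of rows divide each other. -/
theorem adds_bound' [DecidableEq κ] {F : κ → ι → ℂ} [Nonempty κ]
    (hne : ∀ r, ∀ i, F r i ≠ 0)
    (hcol : ∀ i j : ι, i ≠ j → ∀ α β : ℂ, α ≠ 0 → β ≠ 0 → ∃ r, β * F r i - α * F r j ≠ 0)
    (hdvd : ∀ J K : Finset ι, K.Nonempty → K ⊆ J → (rowCls F K).card ∣ (rowCls F J).card) :
    ∀ (m : ℕ) (J : Finset ι) (s : ℕ), J.card = m + 2 → Cmp F J Finset.univ s →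
      2 * J.card + (rowCls F J).card ≤
        s + 2 * ((rowCls F J).card.primeFactorsList.length) + 2 := by
  have hpos : ∀ J : Finset ι, 0 < (rowCls F J).card := by
    intro J
    obtain ⟨r⟩ := ‹Nonempty κ›
    exact Finset.card_pos.2 ⟨_, mem_rowCls.2 ⟨r, rfl⟩⟩
  intro m
  induction m with
  | zero =>
    intro J s hJ hs
    have h1 := card_rowCls_le (by omega) (fun r i _ => hne r i) hs
    -- two columns that are not proportional give two classes
    obtain ⟨i, hi, j, hj, hij⟩ := Finset.one_lt_card.1 (show 1 < J.card by omega)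
    have h2 : (rowCls F J).card ≠ 1 := by
      intro h3
      obtain ⟨x, hx⟩ := Finset.card_eq_one.1 h3
      obtain ⟨r₀⟩ := ‹Nonempty κ›
      obtain ⟨r, hr⟩ := hcol i j hij (F r₀ i) (F r₀ j) (hne _ _) (hne _ _)
      apply hr
      have e1 : cls (rst J (F r)) = x := Finset.mem_singleton.1 (hx ▸ mem_rowCls.2 ⟨r, rfl⟩)
      have e2 : cls (rst J (F r₀)) = x := Finset.mem_singleton.1 (hx ▸ mem_rowCls.2 ⟨r₀, rfl⟩)
      obtain ⟨c, _, hc⟩ := cls_eq.1 (e1.trans e2.symm)
      have e3 : F r i = c * F r₀ i := by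
        have := congrFun hc i
        simpa only [rst, hi, if_true, Pi.smul_apply, smul_eq_mul] using this
      have e4 : F r j = c * F r₀ j := by
        have := congrFun hc j
        simpa only [rst, hj, if_true, Pi.smul_apply, smul_eq_mul] using this
      rw [e3, e4]
      ring
    have h3 : 1 ≤ (rowCls F J).card.primeFactorsList.length := by
      rw [Nat.one_le_iff_ne_zero, Ne, List.length_eq_zero_iff, Nat.primeFactorsList_eq_nil]
      rintro (h | h)
      · exact (hpos J).ne' h
      · exact h2 h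
    omega
  | succ m ih =>
    intro J s hJ hs
    obtain ⟨i, hi, s', hs', hC⟩ := col_step hs (by omega)
      (by obtain ⟨r⟩ := ‹Nonempty κ›; exact ⟨r, Finset.mem_univ r⟩)
      (fun r _ i _ => hne r i) (fun i _ j _ hij α β hα hβ => by
        obtain ⟨r, hr⟩ := hcol i j hij α β hα hβ
        exact ⟨r, Finset.mem_univ r, hr⟩)
    have hcard : (J.erase i).card = m + 2 := by
      rw [Finset.card_erase_of_mem hi]; omega
    have hdv := hdvd J (J.erase i) (Finset.card_pos.1 (by omega)) (Finset.erase_subset i J)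
    have h1 := ih (J.erase i) s' hcard hC
    have hD := drop_step (Finset.erase_subset i J) (by omega) (fun r i _ => hne r i) hs
    have h2 := ih (J.erase i) _ hcard hD
    have h3 := card_rowCls_le (by omega) (fun r i _ => hne r i) hs
    obtain ⟨k, hk⟩ := hdv
    by_cases hk1 : k = 1
    · subst hk1
      rw [mul_one] at hk
      rw [← hk] at h1
      omega
    · have hk0 : k ≠ 0 := by
        rintro rfl
        rw [mul_zero] at hk
        exact (hpos J).ne' hk
      have h4 : (rowCls F J).card.primeFactorsList.length =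
          (rowCls F (J.erase i)).card.primeFactorsList.length + k.primeFactorsList.length := by
        rw [hk, (Nat.perm_primeFactorsList_mul (hpos _).ne' hk0).length_eq, List.length_append]
      have h5 : 1 ≤ k.primeFactorsList.length := by
        rw [Nat.one_le_iff_ne_zero, Ne, List.length_eq_zero_iff, Nat.primeFactorsList_eq_nil]
        rintro (h | h)
        · exact hk0 h
        · exact hk1 h
      omega

end Vale.Agent.P344.H518
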