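import Vale.Agent.P344.H518.Circ
import Vale.Agent.P344.H518.Cls

/-!
# Additions in circuits for the discrete Fourier transform, second version
-/

set_option autoImplicit false

namespace Vale.Agent.P344.H518

open Finset

theorem card_image_le_of {α β γ : Type*} [Fintype α] [DecidableEq β] [DecidableEq γ] [Nonempty β]
    {f : α → β} {g : α → γ} (h : ∀ a b, g a = g b → f a = f b) :
    (Finset.univ.image f).card ≤ (Finset.univ.image g).card := by
  have h1 : Function.FactorsThrough f g := fun a b hab => h a b hab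
  have h2 : Finset.univ.image f =
      (Finset.univ.image g).image (Function.extend g f fun _ => Classical.arbitrary β) := by
    rw [Finset.image_image]
    refine Finset.image_congr fun a _ => ?_
    exact (h1.extend_apply _ a).symm
  rw [h2]
  exact Finset.card_image_le

section Dft

variable {n : ℕ}

/-- The row differences that do not separate the columns in `J`. -/
def ann (J : Finset (Fin n)) : AddSubgroup (ZMod n) where
  carrier := {k | ∀ i ∈ J, ∀ j ∈ J, k * ((i : ℕ) : ZMod n) = k * ((j : ℕ) : ZMod n)}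
  zero_mem' := by intro i _ j _; simp
  add_mem' := by
    intro a b ha hb i hi j hj
    rw [add_mul, add_mul, ha i hi j hj, hb i hi j hj]
  neg_mem' := by
    intro a ha i hi j hj
    rw [neg_mul, neg_mul, ha i hi j hj]

theorem mem_ann {J : Finset (Fin n)} {k : ZMod n} :
    k ∈ ann J ↔ ∀ i ∈ J, ∀ j ∈ J, k * ((i : ℕ) : ZMod n) = k * ((j : ℕ) : ZMod n) := Iff.rfl

theorem ann_anti {J K : Finset (Fin n)} (h : K ⊆ J) : ann J ≤ ann K :=
  fun _ hk i hi j hj => hk i (h hi) j (h hj)

theorem sub_mem_ann_iff {ζ : ℂ} (hζ : IsPrimitiveRoot ζ n) {J : Finset (Fin n)} {r r' : Fin n} :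
    ((r : ℕ) : ZMod n) - ((r' : ℕ) : ZMod n) ∈ ann J ↔
      ∀ i ∈ J, ∀ j ∈ J, ζ ^ (((r : ℤ) - (r' : ℤ)) * ((i : ℤ) - (j : ℤ))) = 1 := by
  rw [mem_ann]
  refine forall_congr' fun i => forall_congr' fun _ => forall_congr' fun j => forall_congr' fun _ => ?_
  rw [hζ.zpow_eq_one_iff_dvd, ← CharP.intCast_eq_zero_iff (ZMod n) n, ← sub_eq_zero]
  push_cast
  rw [mul_sub]

theorem cls_iff {ζ : ℂ} (hn : 0 < n) (hζ : IsPrimitiveRoot ζ n) {F : Fin n → Fin n → ℂ}
    (hF : ∀ r i : Fin n, F r i = ζ ^ ((r : ℕ) * (i : ℕ))) {J : Finset (Fin n)} (hJ : J.Nonempty)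
    {r r' : Fin n} : cls (rst J (F r)) = cls (rst J (F r')) ↔
      ((r : ℕ) : ZMod n) - ((r' : ℕ) : ZMod n) ∈ ann J := by
  have hζ0 : ζ ≠ 0 := hζ.ne_zero hn.ne'
  have hF' : ∀ r i : Fin n, F r i = ζ ^ ((r : ℤ) * (i : ℤ)) := by
    intro r i
    rw [hF]
    norm_cast
  rw [sub_mem_ann_iff hζ, cls_eq]
  constructor
  · rintro ⟨c, hc, h⟩ i hi j hj
    have hval : ∀ k ∈ J, F r k = c * F r' k := by
      intro k hk
      have := congrFun h k
      simpa only [rst, hk, if_true, Pi.smul_apply, smul_eq_mul] using this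
    have h1 := hval i hi
    have h2 := hval j hj
    rw [hF', hF'] at h1 h2
    have e1 : ((r : ℤ) - (r' : ℤ)) * ((i : ℤ) - (j : ℤ)) =
        ((r : ℤ) * i + (r' : ℤ) * j) - ((r' : ℤ) * i + (r : ℤ) * j) := by ring
    rw [e1, zpow_sub₀ hζ0, zpow_add₀ hζ0, zpow_add₀ hζ0, h1, h2]
    have h3 := zpow_ne_zero ((r' : ℤ) * i) hζ0
    have h4 := zpow_ne_zero ((r' : ℤ) * j) hζ0
    field_simp
  · intro h
    obtain ⟨j, hj⟩ := hJ
    refine ⟨ζ ^ (((r : ℤ) - (r' : ℤ)) * (j : ℤ)), zpow_ne_zero _ hζ0, ?_⟩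
    funext i
    by_cases hi : i ∈ J
    · simp only [rst, hi, if_true, Pi.smul_apply, smul_eq_mul]
      have h1 := h i hi j hj
      have e1 : (r : ℤ) * (i : ℤ) = (((r : ℤ) - (r' : ℤ)) * (j : ℤ) + (r' : ℤ) * i) +
        ((r : ℤ) - (r' : ℤ)) * ((i : ℤ) - (j : ℤ)) := by ring
      rw [hF', hF', ← zpow_add₀ hζ0, e1, zpow_add₀ hζ0 (_ + _), h1, mul_one]
    · simp [rst, hi]

theorem card_rowCls [NeZero n] {ζ : ℂ} (hζ : IsPrimitiveRoot ζ n) {F : Fin n → Fin n → ℂ}
    (hF : ∀ r i : Fin n, F r i = ζ ^ ((r : ℕ) * (i : ℕ))) {J : Finset (Fin n)} (hJ : J.Nonempty) :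
    (rowCls F J).card = (ann J).index := by
  classical
  have hn : 0 < n := Nat.pos_of_ne_zero (NeZero.ne n)
  let g : Fin n → ZMod n ⧸ ann J := fun r => QuotientAddGroup.mk ((r : ℕ) : ZMod n)
  have hg : ∀ r r' : Fin n, g r = g r' ↔ cls (rst J (F r')) = cls (rst J (F r)) := by
    intro r r'
    rw [cls_iff hn hζ hF hJ, QuotientAddGroup.eq, ← neg_mem_iff]
    have : -(-((r : ℕ) : ZMod n) + ((r' : ℕ) : ZMod n)) = -(((r' : ℕ) : ZMod n) - ((r : ℕ) : ZMod n)) := by
      ring
    rw [this, neg_mem_iff]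
  have hsurj : Function.Surjective g := by
    intro x
    obtain ⟨z, rfl⟩ := QuotientAddGroup.mk_surjective x
    exact ⟨⟨z.val, ZMod.val_lt z⟩, by simp [g]⟩
  have h1 : (rowCls F J).card = (Finset.univ.image g).card := by
    haveI : Nonempty (Quotient (prp (Fin n))) := ⟨cls 0⟩
    haveI : Nonempty (ZMod n ⧸ ann J) := ⟨0⟩
    unfold rowCls
    refine le_antisymm (card_image_le_of fun a b hab => ?_) (card_image_le_of fun a b hab => ?_)
    · exact ((hg a b).1 hab).symm
    · exact (hg a b).2 hab.symm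
  rw [h1, Finset.image_univ_of_surjective hsurj, Finset.card_univ, AddSubgroup.index_eq_card,
    Nat.card_eq_fintype_card]

theorem ann_univ (hn : 2 ≤ n) : ann (Finset.univ : Finset (Fin n)) = ⊥ := by
  rw [eq_bot_iff]
  intro k hk
  have h1 := hk ⟨1, by omega⟩ (Finset.mem_univ _) ⟨0, by omega⟩ (Finset.mem_univ _)
  rw [AddSubgroup.mem_bot]
  simpa using h1

/-- Additions in a circuit for `F_n`: all but twice the number of prime factors of `3 n`. -/
theorem adds_ge' (hn : 2 ≤ n) (C : Circuit (Fin n) (Fin n)) (hC : C.Comp (dftMat n)) :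
    3 * n ≤ C.adds.card + 2 * n.primeFactorsList.length + 2 := by
  haveI : NeZero n := ⟨by omega⟩
  have hζ := isPrim (n := n) (by omega)
  set ζ := Complex.exp (2 * Real.pi * Complex.I / n) with hζd
  have hζ0 : ζ ≠ 0 := hζ.ne_zero (by omega)
  have hF : ∀ r i : Fin n, dftMat n r i = ζ ^ ((r : ℕ) * (i : ℕ)) := fun _ _ => rfl
  haveI : Nonempty (Fin n) := ⟨0⟩
  have hu : (Finset.univ : Finset (Fin n)).Nonempty := Finset.univ_nonempty
  have hcu : (rowCls (fun r i : Fin n => dftMat n r i) Finset.univ).card = n := by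
    rw [card_rowCls hζ hF hu, ann_univ hn, AddSubgroup.index_bot, Nat.card_eq_fintype_card,
      ZMod.card]
  have h := adds_bound' (F := fun r i : Fin n => dftMat n r i)
    (fun r i => by rw [hF]; exact pow_ne_zero _ hζ0) ?_ ?_ (n - 2) Finset.univ C.adds.card
    (by rw [Finset.card_univ, Fintype.card_fin]; omega) (cmp_of_comp C hC)
  · rw [hcu, Finset.card_univ, Fintype.card_fin] at h
    omega
  · intro i j hij α β hα hβ
    by_contra hcon
    push Not at hcon
    have h1 := card_le_of_prop hn hζ Finset.univ hij hα hβ (by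
      intro r _
      have := hcon r
      simpa only [hF] using this)
    rw [Finset.card_univ, Fintype.card_fin] at h1
    have h2 : n / n.minFac < n := Nat.div_lt_self (by omega) (Nat.minFac_prime (by omega)).one_lt
    omega
  · intro J K hK hKJ
    rw [card_rowCls hζ hF hK, card_rowCls hζ hF (hK.mono hKJ)]
    exact AddSubgroup.index_dvd_of_le (ann_anti hKJ)

end Dft

end Vale.Agent.P344.H518
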