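import Vale.Agent.P344.H120.GDefs
import Vale.Agent.P344.H880.KDft

/-!
# Scalar multiplications in circuits for the discrete Fourier transform
-/

set_option autoImplicit false

namespace Vale.Agent.P344.H518

open Finset Polynomial

/-- The scalar multiplications of a circuit. -/
def muls {ι κ : Type} (C : Circuit ι κ) : Finset C.G :=
  Finset.univ.filter fun g => ¬ (C.gate g).IsAdd

theorem card_adds_add_card_muls {ι κ : Type} (C : Circuit ι κ) :
    C.adds.card + (muls C).card = Fintype.card C.G := by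
  rw [Circuit.adds, muls, Finset.card_filter_add_card_filter_not, Finset.card_univ]

section Span

variable {ι κ : Type} [Fintype ι] [DecidableEq ι] [Fintype κ]

/-- The rational vectors. -/
noncomputable def ratSub (ι : Type) [DecidableEq ι] : Submodule ℚ (ι → ℂ) :=
  Submodule.span ℚ (Set.range fun i : ι => (Pi.single i 1 : ι → ℂ))

theorem ratSub_apply {v : ι → ℂ} (hv : v ∈ ratSub ι) (i : ι) : ∃ q : ℚ, v i = (q : ℂ) := by
  induction hv using Submodule.span_induction with
  | mem x hx =>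
    obtain ⟨k, rfl⟩ := hx
    by_cases h : i = k
    · subst h; exact ⟨1, by simp⟩
    · exact ⟨0, by simp [Pi.single_eq_of_ne h]⟩
  | zero => exact ⟨0, by simp⟩
  | add x y _ _ hx hy =>
    obtain ⟨p, hp⟩ := hx
    obtain ⟨q, hq⟩ := hy
    exact ⟨p + q, by simp [hp, hq]⟩
  | smul a x _ hx =>
    obtain ⟨p, hp⟩ := hx
    exact ⟨a * p, by rw [Pi.smul_apply, hp, Algebra.smul_def]; simp⟩

/-- The linear forms computed are rational combinations of the inputs and of the results of the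
scalar multiplications. -/
theorem form_mem (C : Circuit ι κ) {f : C.G → ι → ℂ} (hf : C.IsForms f) :
    ∀ (d : ℕ) (g : C.G), C.depth g ≤ d →
      f g ∈ ratSub ι ⊔ Submodule.span ℚ (f '' (muls C : Set C.G)) := by
  intro d
  induction d with
  | zero => intro g hg; exact absurd (C.depth_pos g) (by omega)
  | succ d ih =>
    intro g hg
    have hcell : ∀ c ∈ (C.gate g).args,
        C.cell f c ∈ ratSub ι ⊔ Submodule.span ℚ (f '' (muls C : Set C.G)) := by
      intro c hc
      match c with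
      | .inl none => exact Submodule.zero_mem _
      | .inl (some i) =>
        exact Submodule.mem_sup_left (Submodule.subset_span ⟨i, rfl⟩)
      | .inr g' => exact ih g' (by have := C.depth_lt g g' hc; omega)
    have hfg := hf g
    rcases hga : C.gate g with ⟨p, q⟩ | ⟨p, q⟩ | ⟨c, p⟩
    · rw [hga] at hcell hfg
      rw [hfg]
      exact Submodule.add_mem _ (hcell p (by simp [Gate.args])) (hcell q (by simp [Gate.args]))
    · rw [hga] at hcell hfg
      rw [hfg]
      exact Submodule.sub_mem _ (hcell p (by simp [Gate.args])) (hcell q (by simp [Gate.args]))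
    · refine Submodule.mem_sup_right (Submodule.subset_span ⟨g, ?_, rfl⟩)
      simp only [muls, Finset.coe_filter, Finset.mem_univ, true_and, Set.mem_setOf_eq]
      rw [hga]
      exact not_false

theorem row_mem (C : Circuit ι κ) {A : Matrix κ ι ℂ} {f : C.G → ι → ℂ} (hf : C.IsForms f)
    (hout : ∀ j k, C.cell f (C.out j) k = A j k) (j : κ) :
    (fun k => A j k) ∈ ratSub ι ⊔ Submodule.span ℚ (f '' (muls C : Set C.G)) := by
  have e1 : (fun k => A j k) = C.cell f (C.out j) := by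
    ext k; exact (hout j k).symm
  rw [e1]
  match C.out j with
  | .inl none => exact Submodule.zero_mem _
  | .inl (some i) => exact Submodule.mem_sup_left (Submodule.subset_span ⟨i, rfl⟩)
  | .inr g => exact form_mem C hf _ g le_rfl

/-- The rational combinations of the rows of a matrix that are rational. -/
noncomputable def comb (A : Matrix κ ι ℂ) : (κ → ℚ) →ₗ[ℚ] (ι → ℂ) :=
  Fintype.linearCombination ℚ (fun j => (fun k => A j k : ι → ℂ))

noncomputable def combQ (A : Matrix κ ι ℂ) : (κ → ℚ) →ₗ[ℚ] ((ι → ℂ) ⧸ ratSub ι) :=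
  (ratSub ι).mkQ ∘ₗ comb A

/-- At least `card κ - dim ker` scalar multiplications. -/
theorem card_le_muls (C : Circuit ι κ) {A : Matrix κ ι ℂ} (h : C.Comp A) :
    Fintype.card κ ≤ (muls C).card + Module.finrank ℚ (LinearMap.ker (combQ A)) := by
  classical
  obtain ⟨f, hf, hout⟩ := h
  have hrow := row_mem C hf hout
  have h1 := LinearMap.finrank_range_add_finrank_ker (combQ A)
  rw [Module.finrank_fintype_fun_eq_card] at h1
  have h2 : LinearMap.range (combQ A) ≤
      (Submodule.span ℚ (f '' (muls C : Set C.G))).map (ratSub ι).mkQ := by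
    rintro _ ⟨z, rfl⟩
    have h3 : comb A z ∈ ratSub ι ⊔ Submodule.span ℚ (f '' (muls C : Set C.G)) := by
      rw [comb, Fintype.linearCombination_apply]
      exact Submodule.sum_mem _ fun j _ => Submodule.smul_mem _ _ (hrow j)
    obtain ⟨e, he, w, hw, hew⟩ := Submodule.mem_sup.1 h3
    refine ⟨w, hw, ?_⟩
    rw [combQ, LinearMap.comp_apply, ← hew, map_add]
    rw [(Submodule.Quotient.mk_eq_zero (ratSub ι)).2 he |> (fun h => (h : (ratSub ι).mkQ e = 0)),
      zero_add]
  have h4 : Module.finrank ℚ (LinearMap.range (combQ A)) ≤ (muls C).card := by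
    have hfin : (f '' (muls C : Set C.G)).Finite := (Finset.finite_toSet _).image f
    haveI : Module.Finite ℚ (Submodule.span ℚ (f '' (muls C : Set C.G))) :=
      Module.Finite.span_of_finite ℚ hfin
    haveI : Module.Finite ℚ ((Submodule.span ℚ (f '' (muls C : Set C.G))).map (ratSub ι).mkQ) :=
      Module.Finite.map _ _
    calc Module.finrank ℚ (LinearMap.range (combQ A))
        ≤ Module.finrank ℚ ((Submodule.span ℚ (f '' (muls C : Set C.G))).map (ratSub ι).mkQ) :=
          Submodule.finrank_mono h2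
      _ ≤ Module.finrank ℚ (Submodule.span ℚ (f '' (muls C : Set C.G))) :=
          Submodule.finrank_map_le _ _
      _ ≤ (muls C).card := by
          have e1 : (f '' (muls C : Set C.G)) = (((muls C).image f : Finset (ι → ℂ)) : Set (ι → ℂ)) := by
            rw [Finset.coe_image]
          rw [e1]
          exact (finrank_span_finset_le_card _).trans Finset.card_image_le
  omega

end Span

section Dft

variable {n : ℕ}

/-- The Galois group permutes the columns. -/
theorem conj_sum {ζ : ℂ} (hn : 0 < n) (hζ : IsPrimitiveRoot ζ n) {g : ℕ} (hg : g.Coprime n)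
    (z : Fin n → ℚ) (j : ℕ) (q : ℚ) (h : ∑ k : Fin n, (z k : ℂ) * ζ ^ ((k : ℕ) * j) = q) :
    ∑ k : Fin n, (z k : ℂ) * (ζ ^ g) ^ ((k : ℕ) * j) = q := by
  set P : ℚ[X] := ∑ k : Fin n, Polynomial.C (z k) * X ^ ((k : ℕ) * j) - Polynomial.C q with hP
  have haev : ∀ x : ℂ, aeval x P = ∑ k : Fin n, (z k : ℂ) * x ^ ((k : ℕ) * j) - q := by
    intro x
    simp [hP, map_sum]
  have h1 : aeval ζ P = 0 := by rw [haev, h, sub_self]
  have h2 := minpoly.dvd ℚ ζ h1
  rw [← Polynomial.cyclotomic_eq_minpoly_rat hζ hn,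
    Polynomial.cyclotomic_eq_minpoly_rat (hζ.pow_of_coprime g hg) hn] at h2
  obtain ⟨Q, hQ⟩ := h2
  have h3 : aeval (ζ ^ g) P = 0 := by rw [hQ, map_mul, minpoly.aeval, zero_mul]
  rw [haev] at h3
  exact sub_eq_zero.1 h3

/-- Orthogonality. -/
theorem orth {ζ : ℂ} (hn : 0 < n) (hζ : IsPrimitiveRoot ζ n) (m : ℤ) :
    ∑ j : Fin n, (ζ ^ m) ^ (j : ℕ) = if (n : ℤ) ∣ m then (n : ℂ) else 0 := by
  rw [Fin.sum_univ_eq_sum_range (fun j => (ζ ^ m) ^ j) n]
  split_ifs with h
  · rw [(hζ.zpow_eq_one_iff_dvd m).2 h]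
    simp
  · have h1 : ζ ^ m ≠ 1 := fun h2 => h ((hζ.zpow_eq_one_iff_dvd m).1 h2)
    have h2 : (ζ ^ m) ^ n = 1 := by
      rw [← zpow_natCast, ← zpow_mul, mul_comm, zpow_mul, zpow_natCast, hζ.pow_eq_one, one_zpow]
    have h3 := mul_geom_sum (ζ ^ m) n
    rw [h2, sub_self] at h3
    exact (mul_eq_zero.1 h3).resolve_left (sub_ne_zero.2 h1)

/-- A rational row vector with rational transform is invariant under multiplication of the index
by units. -/
theorem inv_of_rat {ζ : ℂ} (hn : 0 < n) (hζ : IsPrimitiveRoot ζ n) (z : Fin n → ℚ)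
    (h : ∀ j : ℕ, j < n → ∃ q : ℚ, ∑ k : Fin n, (z k : ℂ) * ζ ^ ((k : ℕ) * j) = q)
    {g : ℕ} (hg : g.Coprime n) (b a : Fin n) (hab : g * (b : ℕ) ≡ (a : ℕ) [MOD n]) : z a = z b := by
  have hζ0 : ζ ≠ 0 := hζ.ne_zero hn.ne'
  have hn0 : (n : ℂ) ≠ 0 := by exact_mod_cast hn.ne'
  have h1 : ∀ j : Fin n, ∑ k : Fin n, (z k : ℂ) * ζ ^ ((k : ℕ) * (j : ℕ)) =
      ∑ k : Fin n, (z k : ℂ) * (ζ ^ g) ^ ((k : ℕ) * (j : ℕ)) := by
    intro j
    obtain ⟨q, hq⟩ := h j j.2
    rw [conj_sum hn hζ hg z j q hq, hq]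
  -- invert the transform
  have key : ∀ c : ℤ, ∑ j : Fin n, (ζ ^ (-(a : ℤ))) ^ (j : ℕ) *
      ∑ k : Fin n, (z k : ℂ) * (ζ ^ c) ^ ((k : ℕ) * (j : ℕ)) =
      ∑ k : Fin n, (z k : ℂ) * (if (n : ℤ) ∣ c * (k : ℤ) - a then (n : ℂ) else 0) := by
    intro c
    simp_rw [Finset.mul_sum]
    rw [Finset.sum_comm]
    refine Finset.sum_congr rfl fun k _ => ?_
    rw [← orth hn hζ, Finset.mul_sum]
    refine Finset.sum_congr rfl fun j _ => ?_
    have e1 : (ζ ^ (c * (k : ℤ) - a)) ^ (j : ℕ) =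
        (ζ ^ (-(a : ℤ))) ^ (j : ℕ) * (ζ ^ c) ^ ((k : ℕ) * (j : ℕ)) := by
      rw [pow_mul, ← mul_pow, ← zpow_natCast (ζ ^ c), ← zpow_mul, ← zpow_add₀ hζ0]
      congr 2
      ring
    rw [e1]
    ring
  have hl := key 1
  have hr := key g
  have e2 : ∑ j : Fin n, (ζ ^ (-(a : ℤ))) ^ (j : ℕ) *
      ∑ k : Fin n, (z k : ℂ) * (ζ ^ (1 : ℤ)) ^ ((k : ℕ) * (j : ℕ)) =
      ∑ j : Fin n, (ζ ^ (-(a : ℤ))) ^ (j : ℕ) *
      ∑ k : Fin n, (z k : ℂ) * (ζ ^ (g : ℤ)) ^ ((k : ℕ) * (j : ℕ)) := by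
    refine Finset.sum_congr rfl fun j _ => ?_
    rw [zpow_one, zpow_natCast, h1 j]
  rw [hl, hr] at e2
  have e3 : ∑ k : Fin n, (z k : ℂ) * (if (n : ℤ) ∣ 1 * (k : ℤ) - a then (n : ℂ) else 0) =
      (z a : ℂ) * n := by
    rw [Finset.sum_eq_single a]
    · simp
    · intro k _ hka
      rw [if_neg, mul_zero]
      intro hd
      rw [one_mul] at hd
      apply hka
      ext
      have h3 : |(k : ℤ) - a| < n := by
        rw [abs_lt]; constructor <;> have := k.2 <;> have := a.2 <;> omega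
      have h4 := Int.eq_zero_of_abs_lt_dvd hd h3
      omega
    · intro h; exact absurd (Finset.mem_univ a) h
  have e4 : ∑ k : Fin n, (z k : ℂ) * (if (n : ℤ) ∣ (g : ℤ) * (k : ℤ) - a then (n : ℂ) else 0) =
      (z b : ℂ) * n := by
    rw [Finset.sum_eq_single b]
    · rw [if_pos]
      have := (Nat.modEq_iff_dvd.1 hab.symm)
      push_cast at this
      exact this
    · intro k _ hkb
      rw [if_neg, mul_zero]
      intro hd
      apply hkb
      have h3 : g * (k : ℕ) ≡ (a : ℕ) [MOD n] := by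
        refine (Nat.modEq_iff_dvd.2 ?_).symm
        push_cast
        exact hd
      have h4 : g * (k : ℕ) ≡ g * (b : ℕ) [MOD n] := h3.trans hab.symm
      have h5 : (k : ℕ) ≡ (b : ℕ) [MOD n] :=
        Nat.ModEq.cancel_left_of_coprime (by rw [Nat.gcd_comm]; exact hg) h4
      ext
      exact Nat.ModEq.eq_of_lt_of_lt h5 k.2 b.2
    · intro h; exact absurd (Finset.mem_univ b) h
  rw [e3, e4] at e2
  have e5 : (z a : ℂ) = z b := mul_right_cancel₀ hn0 e2
  exact_mod_cast e5

/-- Every residue is a unit times a divisor of `n`. -/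
theorem exists_unit_mul (hn : 0 < n) (k : ℕ) :
    ∃ g : ℕ, g.Coprime n ∧ g * Nat.gcd k n ≡ k [MOD n] := by
  haveI : NeZero n := ⟨hn.ne'⟩
  set d := Nat.gcd k n with hd
  have hdpos : 0 < d := Nat.gcd_pos_of_pos_right _ hn
  obtain ⟨m, hm⟩ : d ∣ n := Nat.gcd_dvd_right k n
  obtain ⟨t, ht⟩ : d ∣ k := Nat.gcd_dvd_left k n
  have hcop : t.Coprime m := by
    have h1 := Nat.coprime_div_gcd_div_gcd (m := k) (n := n) (by rw [← hd]; exact hdpos)
    rw [← hd] at h1
    have e1 : k / d = t := by rw [ht]; exact Nat.mul_div_cancel_left t hdpos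
    have e2 : n / d = m := by rw [hm]; exact Nat.mul_div_cancel_left m hdpos
    rwa [e1, e2] at h1
  have hmn : m ∣ n := ⟨d, by rw [hm, mul_comm]⟩
  obtain ⟨u, hu⟩ := ZMod.unitsMap_surjective hmn (ZMod.unitOfCoprime t hcop)
  refine ⟨(u : ZMod n).val, ZMod.val_coe_unit_coprime u, ?_⟩
  have h1 : (((u : ZMod n).val : ℕ) : ZMod m) = (t : ZMod m) := by
    have h2 := congrArg (fun x : (ZMod m)ˣ => (x : ZMod m)) hu
    simp only [ZMod.unitsMap_val, ZMod.coe_unitOfCoprime] at h2
    rw [← h2, ZMod.natCast_val]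
  have h3 : (u : ZMod n).val ≡ t [MOD m] := (ZMod.natCast_eq_natCast_iff _ _ _).1 h1
  have h4 : (u : ZMod n).val * d ≡ t * d [MOD m * d] := Nat.ModEq.mul_right' d h3
  rw [mul_comm m d, ← hm, mul_comm t d, ← ht] at h4
  exact h4

theorem finrank_ker_le (hn : 0 < n) :
    Module.finrank ℚ (LinearMap.ker (combQ (dftMat n))) ≤ n.divisors.card := by
  have hζ := Complex.isPrimitiveRoot_exp n hn.ne'
  set ζ := Complex.exp (2 * Real.pi * Complex.I / n) with hζd
  let φ : LinearMap.ker (combQ (dftMat n)) →ₗ[ℚ] (n.divisors → ℚ) :=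
    { toFun := fun z d => z.1 ⟨(d : ℕ) % n, Nat.mod_lt _ hn⟩
      map_add' := fun _ _ => rfl
      map_smul' := fun _ _ => rfl }
  have hφ : Function.Injective φ := by
    rw [← LinearMap.ker_eq_bot, LinearMap.ker_eq_bot']
    rintro ⟨z, hz⟩ h0
    have hz1 : comb (dftMat n) z ∈ ratSub (Fin n) := by
      have h1 : combQ (dftMat n) z = 0 := hz
      rw [combQ, LinearMap.comp_apply, Submodule.mkQ_apply, Submodule.Quotient.mk_eq_zero] at h1
      exact h1
    have hrat : ∀ j : ℕ, j < n → ∃ q : ℚ, ∑ k : Fin n, (z k : ℂ) * ζ ^ ((k : ℕ) * j) = q := by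
      intro j hj
      obtain ⟨q, hq⟩ := ratSub_apply hz1 ⟨j, hj⟩
      refine ⟨q, ?_⟩
      rw [← hq, comb, Fintype.linearCombination_apply, Finset.sum_apply]
      refine Finset.sum_congr rfl fun k _ => ?_
      rw [Pi.smul_apply, Algebra.smul_def]
      rfl
    have hz0 : z = 0 := by
      funext k
      obtain ⟨g, hg, hgk⟩ := exists_unit_mul hn (k : ℕ)
      have hdiv : Nat.gcd (k : ℕ) n ∈ n.divisors :=
        Nat.mem_divisors.2 ⟨Nat.gcd_dvd_right _ _, hn.ne'⟩
      have h1 := congrFun h0 ⟨Nat.gcd (k : ℕ) n, hdiv⟩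
      have h2 := inv_of_rat hn hζ z hrat hg ⟨Nat.gcd (k : ℕ) n % n, Nat.mod_lt _ hn⟩ k (by
        refine Nat.ModEq.trans ?_ hgk
        exact Nat.ModEq.mul_left g (Nat.mod_modEq _ _))
      rw [h2]
      exact h1
    exact Subtype.ext hz0
  have h1 := LinearMap.finrank_le_finrank_of_injective hφ
  rwa [Module.finrank_fintype_fun_eq_card, Fintype.card_coe] at h1

/-- Scalar multiplications in a circuit for `F_n`. -/
theorem muls_ge (hn : 0 < n) (C : Circuit (Fin n) (Fin n)) (hC : C.Comp (dftMat n)) :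
    n ≤ (muls C).card + n.divisors.card := by
  have h1 := card_le_muls C hC
  have h2 := finrank_ker_le hn
  rw [Fintype.card_fin] at h1
  omega

end Dft

end Vale.Agent.P344.H518
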