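import Mathlib

/-!
# Additions in a linear straight line program: elimination of rows and columns
-/

set_option autoImplicit false

namespace Vale.Agent.P344.H518

open Finset

variable {ι κ : Type} [DecidableEq ι] [DecidableEq κ]

/-- The vector `v` with all entries outside `J` replaced by `0`. -/
def rst (J : Finset ι) (v : ι → ℂ) : ι → ℂ := fun i => if i ∈ J then v i else 0

/-- `v` is a multiple of a unit vector with index in `J` or of a member of `l`. -/
def Av (J : Finset ι) (l : List (ι → ℂ)) (v : ι → ℂ) : Prop :=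
  v = 0 ∨ (∃ i ∈ J, ∃ c : ℂ, v = Pi.single i c) ∨ ∃ u ∈ l, ∃ c : ℂ, v = c • u

/-- Every member of the list is the sum of two available vectors. -/
inductive Chain (J : Finset ι) : List (ι → ℂ) → Prop
  | nil : Chain J []
  | cons {l : List (ι → ℂ)} {a b : ι → ℂ} : Chain J l → Av J l a → Av J l b → Chain J ((a + b) :: l)

theorem Av.mono {J : Finset ι} {l l' : List (ι → ℂ)} {v : ι → ℂ} (h : Av J l v)
    (hl : ∀ u ∈ l, u ∈ l') : Av J l' v := by
  rcases h with h | h | ⟨u, hu, c, hc⟩
  · exact Or.inl h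
  · exact Or.inr (Or.inl h)
  · exact Or.inr (Or.inr ⟨u, hl u hu, c, hc⟩)

theorem Av.smul {J : Finset ι} {l : List (ι → ℂ)} {v : ι → ℂ} (c : ℂ) (h : Av J l v) :
    Av J l (c • v) := by
  rcases h with h | ⟨i, hi, d, hd⟩ | ⟨u, hu, d, hd⟩
  · exact Or.inl (by rw [h, smul_zero])
  · refine Or.inr (Or.inl ⟨i, hi, c * d, ?_⟩)
    rw [hd]
    ext k
    by_cases hk : k = i
    · subst hk; simp
    · simp [Pi.single_eq_of_ne hk]
  · exact Or.inr (Or.inr ⟨u, hu, c * d, by rw [hd, smul_smul]⟩)

theorem Av.remove {J : Finset ι} {l₁ l₂ : List (ι → ℂ)} {v w : ι → ℂ} (hv : Av J l₂ v)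
    (hw : Av J (l₁ ++ v :: l₂) w) : Av J (l₁ ++ l₂) w := by
  rcases hw with h | h | ⟨u, hu, c, hc⟩
  · exact Or.inl h
  · exact Or.inr (Or.inl h)
  · rw [List.mem_append, List.mem_cons] at hu
    rcases hu with hu | hu | hu
    · exact Or.inr (Or.inr ⟨u, List.mem_append_left _ hu, c, hc⟩)
    · rw [hc, hu]
      exact (hv.smul c).mono fun x hx => List.mem_append_right _ hx
    · exact Or.inr (Or.inr ⟨u, List.mem_append_right _ hu, c, hc⟩)

theorem Chain.tail {J : Finset ι} {v : ι → ℂ} {l : List (ι → ℂ)} (h : Chain J (v :: l)) :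
    Chain J l := by
  cases h with
  | cons h _ _ => exact h

theorem Chain.suffix {J : Finset ι} {l₁ l₂ : List (ι → ℂ)} (h : Chain J (l₁ ++ l₂)) :
    Chain J l₂ := by
  induction l₁ with
  | nil => exact h
  | cons x l₁ ih => exact ih (by rw [List.cons_append] at h; exact h.tail)

theorem Chain.remove {J : Finset ι} {l₁ l₂ : List (ι → ℂ)} {v : ι → ℂ} (hv : Av J l₂ v)
    (h : Chain J (l₁ ++ v :: l₂)) : Chain J (l₁ ++ l₂) := by
  induction l₁ with
  | nil => exact h.tail
  | cons x l₁ ih =>
    rw [List.cons_append] at h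
    cases h with
    | cons h ha hb => exact Chain.cons (ih h) (hv.remove ha) (hv.remove hb)

theorem rst_add (J : Finset ι) (a b : ι → ℂ) : rst J (a + b) = rst J a + rst J b := by
  ext i; by_cases h : i ∈ J <;> simp [rst, h]

theorem rst_smul (J : Finset ι) (c : ℂ) (a : ι → ℂ) : rst J (c • a) = c • rst J a := by
  ext i; by_cases h : i ∈ J <;> simp [rst, h]

theorem rst_zero (J : Finset ι) : rst J (0 : ι → ℂ) = 0 := by
  ext i; by_cases h : i ∈ J <;> simp [rst]

theorem rst_single_mem {J : Finset ι} {i : ι} (hi : i ∈ J) (c : ℂ) :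
    rst J (Pi.single i c) = Pi.single i c := by
  ext k
  by_cases hk : k = i
  · subst hk; simp [rst, hi]
  · by_cases h : k ∈ J <;> simp [rst, h, Pi.single_eq_of_ne hk]

theorem rst_single_notMem {J : Finset ι} {i : ι} (hi : i ∉ J) (c : ℂ) :
    rst J (Pi.single i c) = 0 := by
  ext k
  by_cases hk : k = i
  · subst hk; simp [rst, hi]
  · by_cases h : k ∈ J <;> simp [rst, h, Pi.single_eq_of_ne hk]

theorem rst_rst {J K : Finset ι} (h : K ⊆ J) (v : ι → ℂ) : rst K (rst J v) = rst K v := by
  ext i
  by_cases hi : i ∈ K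
  · simp [rst, hi, h hi]
  · simp [rst, hi]

theorem Av.rst {J K : Finset ι} (hK : K ⊆ J) {l : List (ι → ℂ)} {v : ι → ℂ} (h : Av J l v) :
    Av K (l.map (H518.rst K)) (H518.rst K v) := by
  rcases h with h | ⟨i, hi, c, hc⟩ | ⟨u, hu, c, hc⟩
  · exact Or.inl (by rw [h, rst_zero])
  · by_cases hiK : i ∈ K
    · exact Or.inr (Or.inl ⟨i, hiK, c, by rw [hc, rst_single_mem hiK]⟩)
    · exact Or.inl (by rw [hc, rst_single_notMem hiK])
  · exact Or.inr (Or.inr ⟨H518.rst K u, List.mem_map_of_mem hu, c, by rw [hc, rst_smul]⟩)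

theorem Chain.rst {J K : Finset ι} (hK : K ⊆ J) {l : List (ι → ℂ)} (h : Chain J l) :
    Chain K (l.map (H518.rst K)) := by
  induction h with
  | nil => exact Chain.nil
  | cons _ ha hb ih =>
    rw [List.map_cons, rst_add]
    exact Chain.cons ih (ha.rst hK) (hb.rst hK)

/-- The rows `r ∈ R` of `F`, restricted to the columns in `J`, are computed with at most `s`
additions. -/
def Cmp (F : κ → ι → ℂ) (J : Finset ι) (R : Finset κ) (s : ℕ) : Prop :=
  ∃ l : List (ι → ℂ), Chain J l ∧ l.length ≤ s ∧ ∀ r ∈ R, Av J l (rst J (F r))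

/-- Two nonzero entries. -/
theorem not_av_nil {J : Finset ι} {v : ι → ℂ} {i j : ι} (hij : i ≠ j) (hi : v i ≠ 0)
    (hj : v j ≠ 0) : ¬ Av J [] v := by
  rintro (h | ⟨k, hk, c, hc⟩ | ⟨u, hu, _⟩)
  · exact hi (by rw [h]; rfl)
  · rw [hc] at hi hj
    have h1 : i = k := by
      by_contra hne
      exact hi (Pi.single_eq_of_ne hne _)
    have h2 : j = k := by
      by_contra hne
      exact hj (Pi.single_eq_of_ne hne _)
    exact hij (h1.trans h2.symm)
  · simp at hu

/-- Elimination of a row. -/
theorem row_step {F : κ → ι → ℂ} {J : Finset ι} {R : Finset κ} {s : ℕ} (h : Cmp F J R s)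
    (hJ : 1 < J.card) (hR : R.Nonempty) (hne : ∀ r ∈ R, ∀ i ∈ J, F r i ≠ 0)
    (hprop : ∀ r ∈ R, ∀ r' ∈ R, r ≠ r' → ∀ c : ℂ, rst J (F r') ≠ c • rst J (F r)) :
    ∃ r ∈ R, ∃ s', s = s' + 1 ∧ Cmp F J (R.erase r) s' := by
  obtain ⟨l, hl, hls, hout⟩ := h
  obtain ⟨i, hi, j, hj, hij⟩ := Finset.one_lt_card.1 hJ
  have hent : ∀ r ∈ R, ∀ k ∈ J, rst J (F r) k ≠ 0 := by
    intro r hr k hk
    simp only [rst, hk, if_true]
    exact hne r hr k hk
  cases l with
  | nil =>
    obtain ⟨r, hr⟩ := hR
    exact absurd (hout r hr) (not_av_nil hij (hent r hr i hi) (hent r hr j hj))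
  | cons v l =>
    rw [List.length_cons] at hls
    obtain ⟨s', rfl⟩ : ∃ s', s = s' + 1 := ⟨s - 1, by omega⟩
    by_cases hall : ∀ r ∈ R, Av J l (rst J (F r))
    · obtain ⟨r, hr⟩ := hR
      exact ⟨r, hr, s', rfl, l, hl.tail, by omega, fun r' hr' => hall r' (Finset.mem_of_mem_erase hr')⟩
    · push Not at hall
      obtain ⟨r, hr, hrl⟩ := hall
      have hcase : ∀ r' ∈ R, Av J l (rst J (F r')) ∨ ∃ c : ℂ, rst J (F r') = c • v := by
        intro r' hr'
        rcases hout r' hr' with h | h | ⟨u, hu, c, hc⟩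
        · exact Or.inl (Or.inl h)
        · exact Or.inl (Or.inr (Or.inl h))
        · rw [List.mem_cons] at hu
          rcases hu with hu | hu
          · exact Or.inr ⟨c, by rw [hc, hu]⟩
          · exact Or.inl (Or.inr (Or.inr ⟨u, hu, c, hc⟩))
      obtain ⟨c, hc⟩ := (hcase r hr).resolve_left hrl
      have hc0 : c ≠ 0 := by
        rintro rfl
        rw [zero_smul] at hc
        exact hent r hr i hi (by rw [hc]; rfl)
      refine ⟨r, hr, s', rfl, l, hl.tail, by omega, fun r' hr' => ?_⟩
      have hr'R := Finset.mem_of_mem_erase hr'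
      rcases hcase r' hr'R with h | ⟨c', hc'⟩
      · exact h
      · exfalso
        refine hprop r hr r' hr'R (Finset.ne_of_mem_erase hr').symm (c' * c⁻¹) ?_
        rw [hc', hc, smul_smul, mul_assoc, inv_mul_cancel₀ hc0, mul_one]

/-- Either some later vector uses one of the two unit vectors of the first addition, or all
vectors have proportional entries there. -/
theorem uses_or {J : Finset ι} {i j : ι} (hij : i ≠ j) {α β : ℂ} (l : List (ι → ℂ))
    (h : Chain J (l ++ [Pi.single i α + Pi.single j β])) :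
    (∃ l₁ l₂ w b c k, l = l₁ ++ w :: l₂ ∧ (k = i ∨ k = j) ∧ w = Pi.single k c + b ∧
      Av J (l₂ ++ [Pi.single i α + Pi.single j β]) b) ∨
    ∀ w ∈ l ++ [Pi.single i α + Pi.single j β], β * w i - α * w j = 0 := by
  induction l with
  | nil =>
    right
    intro w hw
    rw [List.nil_append, List.mem_singleton] at hw
    subst hw
    simp [Pi.single_eq_of_ne hij, Pi.single_eq_of_ne hij.symm]
    ring
  | cons x l ih =>
    rw [List.cons_append] at h
    cases h with
    | @cons _ a b h ha hb =>
      rcases ih h with ⟨l₁, l₂, w, b', c, k, h1, h2, h3, h4⟩ | hall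
      · exact Or.inl ⟨(a + b) :: l₁, l₂, w, b', c, k, by rw [h1]; rfl, h2, h3, h4⟩
      · have key : ∀ u, Av J (l ++ [Pi.single i α + Pi.single j β]) u →
            (∃ c k, (k = i ∨ k = j) ∧ u = Pi.single k c) ∨ β * u i - α * u j = 0 := by
          rintro u (hu | ⟨k, hk, c, hc⟩ | ⟨w, hw, c, hc⟩)
          · right; simp [hu]
          · by_cases hki : k = i
            · exact Or.inl ⟨c, k, Or.inl hki, hc⟩
            · by_cases hkj : k = j
              · exact Or.inl ⟨c, k, Or.inr hkj, hc⟩
              · right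
                rw [hc, Pi.single_eq_of_ne (Ne.symm hki), Pi.single_eq_of_ne (Ne.symm hkj)]
                ring
          · right
            rw [hc]
            simp only [Pi.smul_apply, smul_eq_mul]
            have := hall w hw
            linear_combination c * this
        rcases key a ha with ⟨c, k, hk, hc⟩ | ha0
        · exact Or.inl ⟨[], l, a + b, b, c, k, rfl, hk, by rw [hc], hb⟩
        · rcases key b hb with ⟨c, k, hk, hc⟩ | hb0
          · exact Or.inl ⟨[], l, a + b, a, c, k, rfl, hk, by rw [hc, add_comm], ha⟩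
          · right
            intro w hw
            rw [List.cons_append, List.mem_cons] at hw
            rcases hw with hw | hw
            · rw [hw]
              simp only [Pi.add_apply]
              linear_combination ha0 + hb0
            · exact hall w hw

/-- Elimination of a column. -/
theorem col_step {F : κ → ι → ℂ} {J : Finset ι} {R : Finset κ} {s : ℕ} (h : Cmp F J R s)
    (hJ : 1 < J.card) (hR : R.Nonempty) (hne : ∀ r ∈ R, ∀ i ∈ J, F r i ≠ 0)
    (hcol : ∀ i ∈ J, ∀ j ∈ J, i ≠ j → ∀ α β : ℂ, α ≠ 0 → β ≠ 0 →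
      ∃ r ∈ R, β * F r i - α * F r j ≠ 0) :
    ∃ i ∈ J, ∃ s', s = s' + 2 ∧ Cmp F (J.erase i) R s' := by
  classical
  -- a chain of least length
  obtain ⟨l₀, hl₀, hls₀, hout₀⟩ := h
  let P : ℕ → Prop := fun m => ∃ l : List (ι → ℂ), Chain J l ∧ l.length = m ∧
    ∀ r ∈ R, Av J l (rst J (F r))
  have hP : ∃ m, P m := ⟨l₀.length, l₀, hl₀, rfl, hout₀⟩
  obtain ⟨l, hl, hlen, hout⟩ := Nat.find_spec hP
  have hmin : ∀ l' : List (ι → ℂ), Chain J l' → (∀ r ∈ R, Av J l' (rst J (F r))) →
      l.length ≤ l'.length := by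
    intro l' h1 h2
    rw [hlen]
    exact Nat.find_min' hP ⟨l', h1, rfl, h2⟩
  have hls : l.length ≤ s := (hmin l₀ hl₀ hout₀).trans hls₀
  obtain ⟨i₀, hi₀, j₀, hj₀, hij₀⟩ := Finset.one_lt_card.1 hJ
  have hent : ∀ r ∈ R, ∀ k ∈ J, rst J (F r) k = F r k := by
    intro r hr k hk
    simp only [rst, hk, if_true]
  obtain ⟨r₀, hr₀⟩ := hR
  rcases List.eq_nil_or_concat l with hnil | ⟨l', v, hl'⟩
  · subst hnil
    exact absurd (hout r₀ hr₀) (not_av_nil hij₀ (by rw [hent r₀ hr₀ _ hi₀]; exact hne _ hr₀ _ hi₀)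
      (by rw [hent r₀ hr₀ _ hj₀]; exact hne _ hr₀ _ hj₀))
  · rw [List.concat_eq_append] at hl'
    subst hl'
    have hvnot : ¬ Av J [] v := by
      intro hv
      have h1 : Chain J (l' ++ []) := Chain.remove hv (by simpa using hl)
      rw [List.append_nil] at h1
      have h2 : ∀ r ∈ R, Av J l' (rst J (F r)) := by
        intro r hr
        have h3 := Av.remove (l₁ := l') (l₂ := []) hv (by simpa using hout r hr)
        simpa using h3
      have h4 := hmin l' h1 h2
      rw [List.length_append] at h4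
      simp at h4
    have hv1 : Chain J [v] := Chain.suffix hl
    obtain ⟨i, hi, j, hj, hij, α, β, hα, hβ, hv⟩ : ∃ i ∈ J, ∃ j ∈ J, i ≠ j ∧ ∃ α β : ℂ, α ≠ 0 ∧
        β ≠ 0 ∧ v = Pi.single i α + Pi.single j β := by
      cases hv1 with
      | @cons _ a b _ ha hb =>
        rcases ha with ha | ⟨i, hi, α, hα⟩ | ⟨u, hu, _⟩
        · exact absurd (by rw [ha, zero_add]; exact hb) hvnot
        · rcases hb with hb | ⟨j, hj, β, hβ⟩ | ⟨u, hu, _⟩
          · exact absurd (by rw [hb, add_zero]; exact Or.inr (Or.inl ⟨i, hi, α, hα⟩)) hvnot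
          · by_cases hij : i = j
            · subst hij
              exact absurd (Or.inr (Or.inl ⟨i, hi, α + β, by rw [hα, hβ, Pi.single_add]⟩)) hvnot
            · by_cases hα0 : α = 0
              · exact absurd (by rw [hα, hα0, Pi.single_zero, zero_add]
                                 exact Or.inr (Or.inl ⟨j, hj, β, hβ⟩)) hvnot
              · by_cases hβ0 : β = 0
                · exact absurd (by rw [hβ, hβ0, Pi.single_zero, add_zero]
                                   exact Or.inr (Or.inl ⟨i, hi, α, hα⟩)) hvnot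
                · exact ⟨i, hi, j, hj, hij, α, β, hα0, hβ0, by rw [hα, hβ]⟩
          · simp at hu
        · simp at hu
    subst hv
    rcases uses_or hij l' hl with ⟨l₁, l₂, w, b, c, k, hl1, hk, hw, hb⟩ | hall
    · subst hl1
      have hkJ : k ∈ J := by rcases hk with rfl | rfl <;> assumption
      have hK : J.erase k ⊆ J := Finset.erase_subset k J
      set Q := J.erase k with hQ
      set v := (Pi.single i α + Pi.single j β : ι → ℂ) with hvdef
      -- the images of `w` and `v` are available earlier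
      have hav : ∀ (m : ι) (γ : ℂ), m ∈ J → Av Q [] (rst Q (Pi.single m γ)) := by
        intro m γ _
        by_cases hmQ : m ∈ Q
        · exact Or.inr (Or.inl ⟨m, hmQ, γ, rst_single_mem hmQ γ⟩)
        · exact Or.inl (rst_single_notMem hmQ γ)
      have hkQ : k ∉ Q := by rw [hQ]; exact Finset.notMem_erase k J
      have hv' : Av Q [] (rst Q v) := by
        have e1 : rst Q v = rst Q (Pi.single i α) + rst Q (Pi.single j β) := by
          rw [hvdef, rst_add]
        rcases hk with hk | hk
        · have e2 : rst Q (Pi.single i α) = 0 := rst_single_notMem (by rw [← hk]; exact hkQ) α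
          rw [e1, e2, zero_add]
          exact hav j β hj
        · have e2 : rst Q (Pi.single j β) = 0 := rst_single_notMem (by rw [← hk]; exact hkQ) β
          rw [e1, e2, add_zero]
          exact hav i α hi
      have hw1 : rst Q w = rst Q b := by
        rw [hw, rst_add, rst_single_notMem hkQ, zero_add]
      have hw' : Av Q (l₂.map (rst Q) ++ [rst Q v]) (rst Q w) := by
        rw [hw1]
        have := hb.rst hK
        simpa using this
      have hch := hl.rst hK
      rw [List.map_append, List.map_append, List.map_cons, List.map_singleton, List.append_assoc,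
        List.cons_append] at hch
      have hch1 := Chain.remove hw' hch
      rw [← List.append_assoc] at hch1
      have hch2 := Chain.remove (l₂ := []) hv' hch1
      rw [List.append_nil] at hch2
      have hlen2 : (l₁.map (rst Q) ++ l₂.map (rst Q)).length + 2 =
          (l₁ ++ w :: l₂ ++ [v]).length := by
        simp only [List.length_append, List.length_map, List.length_cons, List.length_nil]
        omega
      refine ⟨k, hkJ, s - 2, by omega, l₁.map (rst Q) ++ l₂.map (rst Q), hch2, by omega, ?_⟩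
      intro r hr
      have h1 := (hout r hr).rst hK
      rw [rst_rst hK, List.map_append, List.map_append, List.map_cons, List.map_singleton,
        List.append_assoc, List.cons_append] at h1
      have h2 := Av.remove hw' h1
      rw [← List.append_assoc] at h2
      have h3 := Av.remove (l₂ := []) hv' h2
      rwa [List.append_nil] at h3
    · exfalso
      obtain ⟨r, hr, hrne⟩ := hcol i hi j hj hij α β hα hβ
      rcases hout r hr with h | ⟨k, hk, c, hc⟩ | ⟨u, hu, c, hc⟩
      · have : F r i = 0 := by rw [← hent r hr i hi, h]; rfl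
        exact hne r hr i hi this
      · exact not_av_nil (J := J) hij (by rw [hent r hr i hi]; exact hne r hr i hi)
          (by rw [hent r hr j hj]; exact hne r hr j hj) (Or.inr (Or.inl ⟨k, hk, c, hc⟩))
      · apply hrne
        rw [← hent r hr i hi, ← hent r hr j hj, hc]
        simp only [Pi.smul_apply, smul_eq_mul]
        have := hall u hu
        linear_combination c * this

/-- The number of additions: `3 n - q - 3` if the columns are pairwise not proportional on every
set of more than `q` rows, and conversely. -/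
theorem adds_bound {n q s : ℕ} (hq : 1 ≤ q) (hqn : q < n) {F : Fin n → Fin n → ℂ}
    (hne : ∀ r i, F r i ≠ 0)
    (hrow : ∀ J : Finset (Fin n), q < J.card → ∀ r r' : Fin n, r ≠ r' → ∀ c : ℂ,
      rst J (F r') ≠ c • rst J (F r))
    (hcol : ∀ R : Finset (Fin n), q < R.card → ∀ i j : Fin n, i ≠ j → ∀ α β : ℂ, α ≠ 0 → β ≠ 0 →
      ∃ r ∈ R, β * F r i - α * F r j ≠ 0)
    (h : Cmp F Finset.univ Finset.univ s) : 3 * n ≤ s + q + 3 := by
  -- rows
  have h1 : ∀ d, d + q + 1 ≤ n → ∃ (R : Finset (Fin n)) (s' : ℕ), R.card + d = n ∧ s = s' + d ∧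
      Cmp F Finset.univ R s' := by
    intro d
    induction d with
    | zero => intro _; exact ⟨Finset.univ, s, by simp, rfl, h⟩
    | succ d ih =>
      intro hd
      obtain ⟨R, s', hR, hs, hC⟩ := ih (by omega)
      obtain ⟨r, hr, s'', hs'', hC'⟩ := row_step hC (by rw [Finset.card_univ, Fintype.card_fin]; omega)
        (Finset.card_pos.1 (by omega)) (fun r _ i _ => hne r i)
        (fun r _ r' _ hrr => hrow _ (by rw [Finset.card_univ, Fintype.card_fin]; omega) r r' hrr)
      refine ⟨R.erase r, s'', ?_, by omega, hC'⟩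
      rw [Finset.card_erase_of_mem hr]
      have : 0 < R.card := Finset.card_pos.2 ⟨r, hr⟩
      omega
  obtain ⟨R, s', hR, hs, hC⟩ := h1 (n - q - 1) (by omega)
  have hRc : R.card = q + 1 := by omega
  have h2 : ∀ d, d + 1 ≤ n → ∃ (J : Finset (Fin n)) (s'' : ℕ), J.card + d = n ∧
      s' = s'' + 2 * d ∧ Cmp F J R s'' := by
    intro d
    induction d with
    | zero => intro _; exact ⟨Finset.univ, s', by simp, rfl, hC⟩
    | succ d ih =>
      intro hd
      obtain ⟨J, s'', hJ, hs2, hC2⟩ := ih (by omega)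
      obtain ⟨i, hi, s3, hs3, hC3⟩ := col_step hC2 (by omega) (Finset.card_pos.1 (by omega))
        (fun r _ i _ => hne r i) (fun i _ j _ hij α β hα hβ => hcol R (by omega) i j hij α β hα hβ)
      refine ⟨J.erase i, s3, ?_, by omega, hC3⟩
      rw [Finset.card_erase_of_mem hi]
      have : 0 < J.card := Finset.card_pos.2 ⟨i, hi⟩
      omega
  obtain ⟨J, s'', hJ, hs2, _⟩ := h2 (n - 1) (by omega)
  omega

end Vale.Agent.P344.H518
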