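import Vale.Agent.P344.H120.GDefs
import Vale.Agent.P344.H880.KDft
import Vale.Agent.P344.H518.Chain

/-!
# Additions in circuits for the discrete Fourier transform
-/

set_option autoImplicit false

namespace Vale.Agent.P344.H518

open Finset

section Conv

variable {ι κ : Type} [Fintype ι] [DecidableEq ι] [Fintype κ] [DecidableEq κ]

theorem Av.empty_zero {J : Finset ι} {l : List (ι → ℂ)} : Av J l (0 : ι → ℂ) := Or.inl rfl

/-- The linear forms of a circuit are obtained with as many sums as there are additions. -/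
theorem exists_chain (C : Circuit ι κ) {f : C.G → ι → ℂ} (hf : C.IsForms f) (S : Finset C.G) :
    (∀ g ∈ S, ∀ g', Sum.inr g' ∈ (C.gate g).args → g' ∈ S) →
      ∃ l : List (ι → ℂ), Chain Finset.univ l ∧
        l.length ≤ (S.filter fun g => (C.gate g).IsAdd).card ∧ ∀ g ∈ S, Av Finset.univ l (f g) := by
  classical
  refine Finset.induction_on_max_value (motive := fun S : Finset C.G =>
    (∀ g ∈ S, ∀ g', Sum.inr g' ∈ (C.gate g).args → g' ∈ S) →
      ∃ l : List (ι → ℂ), Chain Finset.univ l ∧
        l.length ≤ (S.filter fun g => (C.gate g).IsAdd).card ∧ ∀ g ∈ S, Av Finset.univ l (f g))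
    (fun g => C.depth g) S ?_ ?_
  · intro _
    exact ⟨[], Chain.nil, by simp, fun g hg => absurd hg (Finset.notMem_empty g)⟩
  · intro a s ha hmax ih hcl
    obtain ⟨l, hl, hlen, hav⟩ := ih (by
      intro g hg g' hg'
      rcases Finset.mem_insert.1 (hcl g (Finset.mem_insert_of_mem hg) g' hg') with h | h
      · subst h
        exact absurd (hmax g hg) (not_le.2 (C.depth_lt g g' hg'))
      · exact h)
    have hcell : ∀ c ∈ (C.gate a).args, Av Finset.univ l (C.cell f c) := by
      intro c hc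
      match c with
      | .inl none => exact Or.inl rfl
      | .inl (some i) => exact Or.inr (Or.inl ⟨i, Finset.mem_univ i, 1, rfl⟩)
      | .inr g' =>
        rcases Finset.mem_insert.1 (hcl a (Finset.mem_insert_self a s) g' hc) with h | h
        · subst h
          exact absurd (C.depth_lt g' g' hc) (lt_irrefl _)
        · exact hav g' h
    have hfa := hf a
    have hadd : (C.gate a).IsAdd → ∀ u v : ι → ℂ, f a = u + v → Av Finset.univ l u →
        Av Finset.univ l v → ∃ l : List (ι → ℂ), Chain Finset.univ l ∧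
        l.length ≤ ((insert a s).filter fun g => (C.gate g).IsAdd).card ∧
        ∀ g ∈ insert a s, Av Finset.univ l (f g) := by
      intro hA u v huv hu hv
      refine ⟨(u + v) :: l, Chain.cons hl hu hv, ?_, ?_⟩
      · rw [Finset.filter_insert, if_pos hA, Finset.card_insert_of_notMem (by simp [ha]),
          List.length_cons]
        omega
      · intro g hg
        rcases Finset.mem_insert.1 hg with rfl | hg
        · exact Or.inr (Or.inr ⟨u + v, List.mem_cons_self, 1, by rw [huv, one_smul]⟩)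
        · exact (hav g hg).mono fun x hx => List.mem_cons_of_mem _ hx
    rcases hga : C.gate a with ⟨p, q⟩ | ⟨p, q⟩ | ⟨c, p⟩
    · rw [hga] at hcell hfa
      refine hadd (by rw [hga]; trivial) _ _ hfa (hcell p (by simp [Gate.args]))
        (hcell q (by simp [Gate.args]))
    · rw [hga] at hcell hfa
      refine hadd (by rw [hga]; trivial) (C.cell f p) ((-1 : ℂ) • C.cell f q) ?_
        (hcell p (by simp [Gate.args])) ((hcell q (by simp [Gate.args])).smul _)
      rw [hfa, neg_smul, one_smul, ← sub_eq_add_neg]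
      rfl
    · rw [hga] at hcell hfa
      refine ⟨l, hl, ?_, ?_⟩
      · rw [Finset.filter_insert, if_neg (by rw [hga]; exact not_false)]
        exact hlen
      · intro g hg
        rcases Finset.mem_insert.1 hg with rfl | hg
        · rw [hfa]
          exact (hcell p (by simp [Gate.args])).smul c
        · exact hav g hg

/-- The rows of the matrix computed by a circuit. -/
theorem cmp_of_comp (C : Circuit ι κ) {A : Matrix κ ι ℂ} (h : C.Comp A) :
    Cmp (fun r i => A r i) Finset.univ Finset.univ C.adds.card := by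
  obtain ⟨f, hf, hout⟩ := h
  obtain ⟨l, hl, hlen, hav⟩ := exists_chain C hf Finset.univ (fun _ _ g' _ => Finset.mem_univ g')
  refine ⟨l, hl, hlen, ?_⟩
  intro r _
  have e1 : rst Finset.univ (fun i => A r i) = C.cell f (C.out r) := by
    ext i
    simp only [rst, Finset.mem_univ, if_true]
    exact (hout r i).symm
  rw [e1]
  match C.out r with
  | .inl none => exact Or.inl rfl
  | .inl (some i) => exact Or.inr (Or.inl ⟨i, Finset.mem_univ i, 1, rfl⟩)
  | .inr g => exact hav g (Finset.mem_univ g)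

end Conv

section Dft

variable {n : ℕ}

theorem isPrim (hn : n ≠ 0) : IsPrimitiveRoot (Complex.exp (2 * Real.pi * Complex.I / n)) n :=
  Complex.isPrimitiveRoot_exp n hn

/-- If `ζ^(r i) β = α ζ^(r j)` for all `r ∈ R`, where `i ≠ j` and `α, β ≠ 0`, then
`|R| ≤ n / minFac n`. -/
theorem card_le_of_prop {ζ : ℂ} (hn : 2 ≤ n) (hζ : IsPrimitiveRoot ζ n) (R : Finset (Fin n))
    {i j : Fin n} (hij : i ≠ j) {α β : ℂ} (hα : α ≠ 0) (hβ : β ≠ 0)
    (h : ∀ r ∈ R, β * ζ ^ ((r : ℕ) * (i : ℕ)) - α * ζ ^ ((r : ℕ) * (j : ℕ)) = 0) :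
    R.card ≤ n / n.minFac := by
  have hζ0 : ζ ≠ 0 := hζ.ne_zero (by omega)
  -- the difference of the columns
  set t : ℤ := (i : ℤ) - (j : ℤ) with ht
  have ht0 : t ≠ 0 := by
    intro h0
    apply hij
    ext
    have : (i : ℤ) = (j : ℤ) := by linarith
    exact_mod_cast this
  have hpow : ∀ r ∈ R, ζ ^ ((r : ℤ) * t) = α / β := by
    intro r hr
    have h1 := h r hr
    have e1 : ζ ^ ((r : ℤ) * t) = ζ ^ ((r : ℕ) * (i : ℕ)) / ζ ^ ((r : ℕ) * (j : ℕ)) := by
      rw [ht, mul_sub, zpow_sub₀ hζ0]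
      norm_cast
    rw [e1, div_eq_div_iff (pow_ne_zero _ hζ0) hβ]
    linear_combination h1
  have hdvd : ∀ r ∈ R, ∀ r' ∈ R, (n : ℤ) ∣ ((r : ℤ) - (r' : ℤ)) * t := by
    intro r hr r' hr'
    rw [← hζ.zpow_eq_one_iff_dvd, sub_mul, zpow_sub₀ hζ0, hpow r hr, hpow r' hr']
    exact div_self (div_ne_zero hα hβ)
  -- reduce modulo `m = n / gcd(n, t)`
  set g : ℕ := Int.gcd n t with hg
  have hgpos : 0 < g := Int.gcd_pos_of_ne_zero_right _ ht0
  have hgn : g ∣ n := by
    have := Int.gcd_dvd_left (n : ℤ) t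
    exact_mod_cast this
  obtain ⟨m, hm⟩ := hgn
  have hmt : IsCoprime (m : ℤ) (t / g) := by
    rw [Int.isCoprime_iff_gcd_eq_one]
    have h1 := Int.gcd_ediv_gcd_ediv_gcd (i := (n : ℤ)) (j := t) (by exact_mod_cast hgpos)
    have e1 : (n : ℤ) / (g : ℤ) = m := by
      rw [hm]; push_cast; exact Int.mul_ediv_cancel_left _ (by exact_mod_cast hgpos.ne')
    rwa [← hg, e1] at h1
  have hmpos : 0 < m := Nat.pos_of_ne_zero (by rintro rfl; omega)
  have hmod : ∀ r ∈ R, ∀ r' ∈ R, (m : ℤ) ∣ (r : ℤ) - (r' : ℤ) := by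
    intro r hr r' hr'
    have h1 := hdvd r hr r' hr'
    have h2 : t = g * (t / g) := (Int.mul_ediv_cancel' (by
      have := Int.gcd_dvd_right (n : ℤ) t
      exact this)).symm
    have h3 : (g : ℤ) * m ∣ (g : ℤ) * (((r : ℤ) - (r' : ℤ)) * (t / g)) := by
      have e1 : (g : ℤ) * m = (n : ℤ) := by rw [hm]; push_cast; ring
      have e2 : (g : ℤ) * (((r : ℤ) - (r' : ℤ)) * (t / g)) = ((r : ℤ) - (r' : ℤ)) * t := by
        conv_rhs => rw [h2]
        ring
      rw [e1, e2]
      exact h1
    have h4 := (mul_dvd_mul_iff_left (by exact_mod_cast hgpos.ne')).1 h3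
    exact hmt.dvd_of_dvd_mul_right h4
  have hcard : R.card ≤ g := by
    have : R.card ≤ (Finset.range g).card := by
      refine Finset.card_le_card_of_injOn (fun r => (r : ℕ) / m) ?_ ?_
      · intro r _
        have : (r : ℕ) < g * m := by rw [← hm]; exact r.2
        simpa using (Nat.div_lt_iff_lt_mul hmpos).2 this
      · intro r hr r' hr' hrr
        have h1 := hmod r hr r' hr'
        have h2 : (r : ℕ) % m = (r' : ℕ) % m := by
          have h3 : (r' : ℤ) ≡ (r : ℤ) [ZMOD m] := (Int.modEq_iff_dvd).2 h1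
          have h4 : (r' : ℕ) ≡ (r : ℕ) [MOD m] := by exact_mod_cast h3
          exact h4.symm
        ext
        have hrr' : (r : ℕ) / m = (r' : ℕ) / m := hrr
        rw [← Nat.div_add_mod (r : ℕ) m, ← Nat.div_add_mod (r' : ℕ) m, hrr', h2]
    rwa [Finset.card_range] at this
  refine hcard.trans ?_
  -- `g` is a proper divisor
  have hm1 : m ≠ 1 := by
    rintro rfl
    rw [mul_one] at hm
    have h1 : (n : ℤ) ∣ t := by
      rw [hm]
      exact Int.gcd_dvd_right (n : ℤ) t
    have h2 : |t| < n := by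
      rw [abs_lt]
      constructor <;> have := i.2 <;> have := j.2 <;> omega
    exact ht0 (Int.eq_zero_of_abs_lt_dvd h1 h2)
  have hle : n.minFac ≤ m := Nat.minFac_le_of_dvd (by omega) ⟨g, by rw [hm, mul_comm]⟩
  rw [Nat.le_div_iff_mul_le (Nat.minFac_pos n)]
  calc g * n.minFac ≤ g * m := Nat.mul_le_mul_left _ hle
    _ = n := hm.symm

/-- Additions in a circuit for `F_n`. -/
theorem adds_ge (hn : 2 ≤ n) (C : Circuit (Fin n) (Fin n)) (hC : C.Comp (dftMat n)) :
    3 * n ≤ C.adds.card + n / n.minFac + 3 := by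
  have hζ := isPrim (n := n) (by omega)
  set ζ := Complex.exp (2 * Real.pi * Complex.I / n) with hζd
  have hζ0 : ζ ≠ 0 := hζ.ne_zero (by omega)
  have hF : ∀ r i : Fin n, dftMat n r i = ζ ^ ((r : ℕ) * (i : ℕ)) := fun _ _ => rfl
  have hq : 1 ≤ n / n.minFac := by
    rw [Nat.le_div_iff_mul_le (Nat.minFac_pos n), one_mul]
    exact Nat.minFac_le (by omega)
  have hqn : n / n.minFac < n := Nat.div_lt_self (by omega) (Nat.minFac_prime (by omega)).one_lt
  refine adds_bound hq hqn (F := fun r i => dftMat n r i) (fun r i => ?_) ?_ ?_ (cmp_of_comp C hC)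
  · rw [hF]; exact pow_ne_zero _ hζ0
  · intro J hJ r r' hrr c hc
    have hJ0 : J.Nonempty := Finset.card_pos.1 (by omega)
    obtain ⟨k, hk⟩ := hJ0
    have hval : ∀ k ∈ J, ζ ^ ((r' : ℕ) * (k : ℕ)) = c * ζ ^ ((r : ℕ) * (k : ℕ)) := by
      intro k hk
      have := congrFun hc k
      simpa only [rst, hk, if_true, Pi.smul_apply, smul_eq_mul, hF] using this
    have hc0 : c ≠ 0 := by
      rintro rfl
      have := hval k hk
      rw [zero_mul] at this
      exact pow_ne_zero _ hζ0 this
    have := card_le_of_prop hn hζ J (i := r') (j := r) hrr.symm (α := c) (β := 1) hc0 one_ne_zero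
      (by
        intro k hk
        rw [mul_comm (k : ℕ) (r' : ℕ), mul_comm (k : ℕ) (r : ℕ), one_mul, hval k hk, sub_self])
    omega
  · intro R hR i j hij α β hα hβ
    by_contra hcon
    push Not at hcon
    have := card_le_of_prop hn hζ R hij hα hβ (by
      intro r hr
      have := hcon r hr
      simpa only [hF] using this)
    omega

end Dft

end Vale.Agent.P344.H518
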